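import Vale.Agent.P352AB.Pub

namespace Vale.Agent.P352AB

open P352.GF

noncomputable section

/-- The d'Alembertian. -/
def box (f : Fn) : Fn := fun x => ∑ m, (eta m : ℂ) * pd m (pd m f) x

variable {D : Type*} [NormedAddCommGroup D] [InnerProductSpace ℂ D]

/-- **Conformal invariance, with a scalar potential.** `S` is a stress tensor of dimension four and
`L` is a hermitian scalar field of dimension two, both fields of `Q`, and the trace of `S` is
`3 □ L`. In `Q` and in all theories obtained from `Q` by adding local fields,
`t = S + (∂∂ - η □) L` is a traceless improvement of `S` whose charges generate the conformal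
symmetry, and every field of `Q` is a finite linear combination of derivatives of conformal
primaries. -/
structure ConfL (Q : Theory D) (S : Ix → Ix → Fld D) (L : Fld D) : Prop where
  str : Q.IsStress S
  sca : Q.IsScalar L 2
  tra : ∀ f v, IsTest f → tr S f v = (3 : ℂ) • L (box f) v
  impr : ∀ Q', IsEnl Q Q' → IsImpr Q' S (improve S L)
  act : ∀ Q', IsEnl Q Q' → CAct Q' id (improve S L)
  desc : ∀ Q' B, IsEnl Q Q' → Q.fld B → ∃ (n : ℕ) (C : Fin n → Fld D),
    (∀ i, DescS Q' id (improve S L) false (C i)) ∧ ∀ f v, IsTest f → B f v = ∑ i, C i f v

end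

end Vale.Agent.P352AB
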