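import Vale.Agent.P352AA.W
import Vale.Agent.P352AB.Pub

/-!
# P352AB: transfer to the compact vocabulary
-/

set_option linter.all false

namespace Vale.Agent.P352AB

open Vale.Agent.P352 Vale.Agent.P352.GF
open UniformSpace (Completion)

noncomputable section

variable {D D' : Type*} [NormedAddCommGroup D] [InnerProductSpace ℂ D] [NormedAddCommGroup D']
  [InnerProductSpace ℂ D'] {Q Q' : Theory D} {A : (V → V) → D → D} {T S t : Ix → Ix → Fld D}
  {J K : Ix → Fld D} {G : D → D} {N : Set V → VonNeumannAlgebra (Completion D)}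

def Rp.up (k : Rp) : P352X.Rp := ⟨k.n, k.ρ, k.S, k.id, k.mul, k.der⟩

def dn (k : P352X.Rp) : Rp := ⟨k.n, k.ρ, k.S, k.id, k.mul, k.der⟩

lemma Al.up {W X X'} (h : Al Q W X X') : H246.Al Q W X X' := by
  induction h with
  | one => exact .one
  | add _ _ _ _ _ _ a b => exact .add _ _ _ _ a b
  | smul c _ _ _ a => exact .smul c _ _ a
  | fld A B g _ _ a b c d _ e => exact .fld A B g _ _ a b c d e

lemma IsEnl.up (h : IsEnl Q Q') : H15.IsEnl Q Q' := ⟨h.vac, h.U, h.fld, h.bose⟩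

lemma Stress0.up (h : Stress0 Q T) : P352X.Stress0 Q T :=
  ⟨h.bose, h.symm, h.herm, h.cov, h.conserved, h.charge⟩

lemma PCh.up (h : PCh Q T A) : ND.PCh Q T A := fun F X B f v w a b => h X b F B f v w a

lemma Virial0.up (h : Virial0 Q T J A) : P352Z.Virial0 Q T J A := ⟨h.bose, h.cov, h.div, h.dil⟩

lemma LNm.up (h : LNm Q A N) : BW.LNm Q A N :=
  ⟨⟨h.mul, h.add, h.der⟩, fun O B f a b => let ⟨B', _, c⟩ := Q.adj B a
    ⟨_, fun v w => c f v w b.1, (h.fld O B B' f a c b).com⟩, h.mono, h.cov, h.loc⟩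

lemma RecV.up (h : RecV Q) : P352AA.RecV Q := fun φ hφ hw => by
  choose C hC using h (fun m => φ fun _ => m) ⟨fun m => hφ.lin _, fun m => hφ.cont _,
    fun m s L a f hs hL hf => by
      rw [hφ.cov _ s L a f hs hL hf, P352X.G3p.sum1]
      refine Finset.sum_congr rfl fun k _ => ?_
      rw [show (4 : ℝ) - 3 = 1 by norm_num, Real.rpow_one, Fin.prod_univ_one, Complex.ofReal_mul]
      rfl, fun m f X X' hf hX => hw _ f X X' hf hX.up⟩
  refine ⟨fun μ => C (μ 0), fun μ => ?_⟩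
  have e : μ = fun _ => μ 0 := funext fun i => congrArg μ (Fin.eq_zero i)
  rw [e]
  exact hC _

lemma Borch.up {Q₀} (h : Borch Q₀ Q N) : P352AA.Borch Q N :=
  ⟨Q₀, h.enl.up, h.tf, fun B b => let ⟨n, C, c, d⟩ := h.mf B b
    ⟨n, C, fun i => let ⟨k, Φ, a, e⟩ := c i; ⟨k.up, Φ, a, e⟩, d⟩, h.fs,
    fun E Q' e a b B c => h.max E Q' e B ⟨a.mem, a.vac, a.U, a.fld, a.adj, a.agree,
      fun x y z C C' f p q r s u v => ⟨b x y z C C' f p q r s u v⟩⟩ c⟩

lemma Gr.up (h : Gr Q G) : P352X.Gr Q G := ⟨h.inv, h.herm, h.bose, h.split, h.anti, h.GU, h.mul⟩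

lemma Sect.up {P : Theory D'} {i} (h : Sect Q P i) : P352X.Sect Q P i := ⟨h.vac, h.U, h.cov, h.bose⟩

lemma impr_dn (h : H496.IsImpr Q T t) : IsImpr Q T t :=
  ⟨h.lin, h.cont, h.symm, h.herm, h.cov, h.conserved, h.traceless, h.loc, h.self, h.charge⟩

lemma acts_dn {X k Δ P P'} (h : P352X.ActS t X k Δ P P') : ActS t X (dn k) Δ P P' :=
  ⟨fun a f w v hf => ⟨fun F hF => h a f w v F hf hF⟩⟩

lemma desc_dn {e B} (h : P352X.DescS Q G t e B) : DescS Q G t e B :=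
  let ⟨n, k, d, c, α, a, P, P', h1, h2⟩ := h
  .mk n (fun i => dn (k i)) d c α a P P' (fun i => ⟨fun b => let ⟨R, r⟩ := (h1 i).loc b
    ⟨R, r.linf, r.linv, r.cont, r.adj, r.transl, fun C C' f g v z p q s _ => r.loc C C' f g v z p q s⟩,
    (h1 i).adj, (h1 i).cov, fun X hX => acts_dn ((h1 i).act X hX)⟩) h2

lemma cact_dn (h1 : H755.ConfAct Q t) (h2 : P352X.CFS Q G t)
    (h3 : ∀ (e : Bool) k (Φ : Fin k.n → Fld D) a, P352X.IsMl Q k Φ → (∀ a, P352AA.Fs Q (Φ a)) →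
      (∀ a, if e then P352X.Fer Q G (Φ a) else Q.bose (Φ a)) → P352X.DescS Q G t e (Φ a)) :
    CAct Q G t := by
  refine ⟨fun A B a b c => ?_, fun X Y Y' F a b c => h2.ward X Y Y' F a b.up c,
    fun e k d Φ Φ' r X a b c => acts_dn ((h2.mp e k.up d Φ Φ' a b).1 r X c),
    fun e k Φ a b c d => desc_dn (h3 e k.up Φ a b c d)⟩
  obtain ⟨M, M', L, L', h1, h2, h3⟩ := h1 A B a b c
  have e : ∀ x : Ix → D, ((∑ n, x n : D) : Completion D) = ∑ n, (x n : Completion D) := fun x =>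
    map_sum (Completion.toComplL : D →L[ℂ] Completion D) x _
  exact ⟨M, M', L, L', fun m n => let r := h1 m n; ⟨r.linf, r.linv, r.cont, r.adj, r.transl, r.loc⟩,
    fun m => let r := h2 m; ⟨r.linf, r.linv, r.cont, r.adj, r.transl, r.loc⟩,
    fun X f w v p q => ⟨by
      have := h3 X f w v p q.1 q.2.1
      rw [e] at this
      exact this⟩⟩

lemma conf_dn (h : P352AA.Conf Q G S K) : Conf Q G S K :=
  ⟨h.str, ⟨h.vir.bose, h.vir.herm, h.vir.cov, h.vir.div⟩, impr_dn h.impr,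
    cact_dn h.act h.cfs h.desc⟩

end

universe u

theorem final {D : Type u} {D' : Type*} [NormedAddCommGroup D] [InnerProductSpace ℂ D]
    [NormedAddCommGroup D'] [InnerProductSpace ℂ D'] (Q : Theory D)
    (T : Ix → Ix → Fld D) (hT : Stress0 Q T) (A : (V → V) → D → D) (hA : PCh Q T A)
    (J : Ix → Fld D) (hV : Virial0 Q T J A) (hC : ∀ s, 0 < s → Cov Q s one 0)
    (aT : ∀ m n, Asy Q 4 (T m n)) (aJ : ∀ m, Asy Q 3 (J m)) (hG : TfGen Q)
    (N : Set V → VonNeumannAlgebra (Completion D)) (hN : LNm Q A N) (hU : UVac Q)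
    (hR : RecV Q ∨ ∃ Q₀, Borch Q₀ Q N) :
    ∃ S K, IsImpr Q T (improveJ S K) ∧ (∀ Q' : Theory D, IsEnl Q Q' → Conf Q' id S K) ∧
      ∀ (P : Theory D') i G T' A', Sect Q P i → Gr P G → Stress0 P T' → Der P A' →
        PCh P T' A' → (∀ m n, Asy P 4 (T' m n)) → (∀ m n, Xt i (T m n) (T' m n)) →
        ∃ S' K', IsImpr P T' (improveJ S' K') ∧ Conf P G S' K' := by
  obtain ⟨S, K, h1, h2, h3⟩ := P352AA.final (D' := D') Q T hT.up A hA.up J hV.up hC aT aJ hG N hN.up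
    hU (hR.imp RecV.up fun ⟨_, h⟩ => h.up)
  refine ⟨S, K, impr_dn h1, fun Q' n => conf_dn (h2 Q' n.up), fun P i G T' A' a b c d e f g => ?_⟩
  obtain ⟨S', K', h4, h5⟩ := h3 P i G T' A' a.up b.up c.up d e.up f g
  exact ⟨S', K', impr_dn h4, conf_dn h5⟩

end Vale.Agent.P352AB
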