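import Vale.Agent.P352AA.Cx
import Vale.Agent.P352AB.W
import Vale.Agent.P352AB.Pub2

/-!
# P352AB: the extension of the defining fields
-/

set_option linter.all false

namespace Vale.Agent.P352AB

open Vale.Agent.P352 Vale.Agent.P352.GF
open UniformSpace (Completion)

universe u

theorem finalC {D : Type u} [NormedAddCommGroup D] [InnerProductSpace ℂ D] (Q : Theory D)
    (T : Ix → Ix → Fld D) (hT : Stress0 Q T) (A : (V → V) → D → D) (hA : PCh Q T A)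
    (J : Ix → Fld D) (hV : Virial0 Q T J A) (hC : ∀ s, 0 < s → Cov Q s one 0)
    (aT : ∀ m n, Asy Q 4 (T m n)) (aJ : ∀ m, Asy Q 3 (J m))
    (N : Set V → VonNeumannAlgebra (Completion D)) (hN : LNm Q A N) (hU : UVac Q)
    (Q₀ : Theory D) (h0 : IsEnl Q₀ Q) (hG : TfGen Q₀) (hM : MfAll Q₀)
    (hF : ∀ B, Q₀.fld B → Fs Q₀ B) :
    ∃ S Q₁, Q.IsStress S ∧ PCh Q S A ∧ IsEnl Q₀ Q₁ ∧ IsEnl Q₁ Q ∧ Q₁.IsStress S ∧
      ∃ (E : Submodule ℂ (Completion D)) (Q' : Theory E) (e : Fld D → Fld E) (L : Fld E),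
        Ext Q₁ N Q' e ∧ ConfL Q' (fun m n => e (S m n)) L ∧
        Mult Q fun m f => (eta m : ℂ) • (L (pd m f) Q'.vac : Completion D) := by
  have n := h0.up
  have hG' : BW.TfGen Q := fun W a b => hG W (h0.vac ▸ a) fun k Φ μ f v c =>
    b k Φ μ f v ⟨fun ν => h0.fld _ (c.1 ν), fun ν L f v hL hf => by
      have := c.2 ν L f v hL hf
      rwa [← h0.U] at this⟩
  obtain ⟨S, h1, h2, -, -⟩ := P352AA.core hT.up hA.up hV.up hC aT aJ hG' hN.up hU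
  have hS : (P352AA.sub n h1).IsStress S := ⟨fun m k => .inr ⟨m, k, rfl⟩, h1.symm, h1.herm,
    h1.cov, h1.conserved, fun F k A f v w a b => h1.charge F k A f v w a (P352AA.sub_fld n _ b)⟩
  refine ⟨S, P352AA.sub n h1, h1, fun X b F B f v w a => h2 F X B f v w a b,
    ⟨h0.vac, h0.U, fun _ => .inl, fun _ => .inl⟩, ⟨rfl, rfl, fun _ => P352AA.sub_fld n _,
      fun B b => b.elim (h0.bose _) fun ⟨m, k, e⟩ => e ▸ h1.bose m k⟩, hS, ?_⟩
  have hM' : P352X.MfAll Q₀ := fun B b => let ⟨n, C, c, d⟩ := hM B b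
    ⟨n, C, fun i => let ⟨k, Φ, a, e⟩ := c i; ⟨k.up, Φ, a, e⟩, d⟩
  have R := hN.up
  obtain ⟨k, e1, e2, e3, tp⟩ := P352X.EG.Pt.ctxN (P352AA.sub n h1) S A N hS
    (fun F X B f v w a b d => h2 F X B f v w a b (P352AA.sub_fld n _ d)) (P352AA.sub_tf n _ hG)
    ⟨⟨R.mul, R.add, R.der⟩, fun O B f b => R.fld O B f (P352AA.sub_fld n _ b), R.mono,
      R.cov, R.loc⟩ hU
  haveI : Fact k.tp := ⟨tp⟩
  obtain ⟨E, Q', e, L, a, b, c1, c2, c3, c4⟩ :=
    P352AA.ext_conf k (e1 ▸ P352AA.sub_mf n _ hM') (e1 ▸ P352AA.sub_fsl n _ hF)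
  rw [e1] at a
  rw [e3] at b
  rw [e2] at c1 c3 c4
  refine ⟨E, Q', e, L, ⟨a.mem, a.vac, a.U, a.fld, a.adj, a.agree,
    fun x y z C C' f p q r s u v => ⟨b x y z C C' f p q r s u v⟩⟩, ⟨c1, c2, c3,
    fun Q'' n => impr_dn (c4 Q'' n.up).1,
    fun Q'' n => let ⟨_, p, q, r, _⟩ := c4 Q'' n.up; cact_dn p q r,
    fun Q'' B n hB => let ⟨m, C, p, q⟩ := (c4 Q'' n.up).2.2.2.2 B hB
      ⟨m, C, fun i => desc_dn (p i), q⟩⟩, ?_⟩
  obtain ⟨c, rfl, rfl, -, tp⟩ := P352X.EG.Pt.ctxN Q S A N h1 h2 hG' R hU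
  haveI : Fact c.tp := ⟨tp⟩
  obtain ⟨p, q⟩ := P352AA.ext_weak c a.vac a.U (fun m f hf =>
    a.agree _ f _ c.Q.vac (.inr ⟨m, m, rfl⟩) hf (fun _ a _ => a) a.vac) c2 c3
  have e : ∀ m f, (eta m : ℂ) • (L (pd m f) Q'.vac : Completion D) =
      (-3⁻¹ : ℂ) • P352AA.gr (fun f => (L f Q'.vac : E)) (fun _ => m) f := fun m f => by
    rw [P352AA.gr, smul_smul]
    congr 1
    push_cast
    ring
  simp only [e]
  refine ⟨fun m f g z hf hg => by rw [p.lin _ f g z hf hg, smul_add, smul_comm],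
    fun m => (p.cont fun _ => m).fun_const_smul _, fun m s Λ y f hs hL hf => ?_, fun m f X X' hf hX => by
      rw [inner_smul_right, inner_smul_left, q _ f X X' hf hX.up, map_neg, map_inv₀, map_ofNat]⟩
  rw [p.cov _ s Λ y f hs hL hf, P352X.G3p.sum1, Finset.smul_sum]
  refine Finset.sum_congr rfl fun k _ => ?_
  rw [show (4 : ℝ) - 3 = 1 by norm_num, Real.rpow_one, Fin.prod_univ_one, Complex.ofReal_mul,
    smul_comm]
  exact congrArg _ ((P352X.Ug_apply _ hs hL _ _).symm.trans ((map_smul _ _ _).trans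
    (congrArg _ (P352X.Ug_apply _ hs hL _ _)))).symm

end Vale.Agent.P352AB
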